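import Vale.Agent.P254Z.Eq.Final
import Vale.Agent.P254Z.Asm.Main
import Vale.Agent.P254Z.Cert.Q0
import Vale.Agent.P254Z.Cert.Q1
import Vale.Agent.P254Z.Cert.Pair

namespace Vale.Agent.Results.P254.AStrongIsotropic

open Vale.Agent.P254 Vale.Agent.P254Z

/-- The strong isotropic constant conjecture, with its equality case. -/
theorem result : ∀ (n : ℕ) (K S : Set (Fin n → ℝ)), 1 ≤ n → IsConvexBody K → IsSimplex S →
    isoConst K ≤ isoConst S ∧ (isoConst K = isoConst S ↔ IsSimplex K) :=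
  Eq.q1_of (Asm.stmtMargin_of (Cert.stmtCert_of Cert.stmtPair Cert.q0A Cert.q0B Cert.q0C Cert.q0D
    Cert.stmtQ1A Cert.stmtQ1B Cert.stmtQ1C Cert.stmtQ1D))

end Vale.Agent.Results.P254.AStrongIsotropic
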